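import Crest.Agent.X212.Sm10.Dg3
import Crest.Agent.X212.Sm10.Dg1
import Crest.Agent.X212.Cut71.Hf
import Crest.Agent.X212.Sw21.Tool
import Crest.Agent.X212.Win45.Gap

-- ▼ part X212/Shf6/Tr
section

/-!
# Row 212, GL-SHIFT (helper6), part 1: continuity of translations on a cylinder
-/

set_option autoImplicit false
set_option linter.unusedSectionVars false
noncomputable section
open scoped Manifold ContDiff Topology InnerProductSpace ENNReal
open MeasureTheory Set Function Filter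

namespace Crest.Agent.X212.Shf6
open An Sw Sob92 Cyf70 Sw.En3 Sm10.Dg
open M (Mf pm)
open Cut71 (shf Dw_sh mp_sH sH sm_sH)

variable {κ lam ν : Type} [Fintype κ] [Fintype lam] [Fintype ν] [DecidableEq ν]
  {e : En3 κ lam ν} {V : Type} [NormedAddCommGroup V] [NormedSpace ℝ V]
  {α : Type} {l : Filter α} {ε : α → ℝ}

theorem Dw_sub {E HM M ι : Type} [NormedAddCommGroup E] [NormedSpace ℝ E] [FiniteDimensional ℝ E]
    [MeasurableSpace E] [BorelSpace E] [TopologicalSpace HM] {I : ModelWithCorners ℝ E HM}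
    [TopologicalSpace M] [ChartedSpace HM M] [IsManifold I ∞ M] [MeasurableSpace M] [T2Space M]
    [BorelSpace M] [SecondCountableTopology M] [Fintype ι] {F : Pre I M ι} {u v : M → V}
    (hu : Sm I u) (hv : Sm I v) (w : List ι) (x : M) :
    F.Dw w (fun y => u y - v y) x = F.Dw w u x - F.Dw w v x :=
  eq_sub_of_add_eq ((Dw_add_on isOpen_univ w (fun y _ => (hu.sub hv) y) (fun y _ => hv y) x
    trivial).symm.trans (by simp))

theorem tr0 {G : e.Y.M × ℝ → V} (hG : MemLp G 2 e.D.Z.μ) :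
    Tendsto (fun s : ℝ => I2 e.D.Z.toPre univ fun x => G (x.1, x.2 + s) - G x) (𝓝 0) (𝓝 0) := by
  let g : C(ℝ, C(e.Y.M × ℝ, e.Y.M × ℝ)) :=
    ContinuousMap.curry ⟨fun p => (p.2.1, p.2.2 + p.1), by fun_prop⟩
  have h := tendsto_iff_edist_tendsto_0.1 (((continuous_const (y := hG.toLp G)).compMeasurePreservingLp
    g.continuous (fun s => mp_sH s) ENNReal.ofNat_ne_top).tendsto 0)
  have h2 := (ENNReal.continuous_rpow_const (y := 2)).tendsto 0 |>.comp h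
  rw [ENNReal.zero_rpow_of_pos two_pos] at h2
  refine h2.congr fun s => ?_
  refine (congrArg (· ^ (2 : ℝ)) (Lp.edist_toLp_toLp _ _ (hG.comp_measurePreserving (mp_sH s))
    (hG.comp_measurePreserving (mp_sH 0)))).trans
    ((eLpNorm_nnreal_pow_eq_lintegral (p := 2) two_ne_zero).trans ?_)
  simp [I2, Cut71.sH_apply]

theorem I2_sh (G : e.Y.M × ℝ → V) (s : ℝ) :
    I2 e.D.Z.toPre univ (fun x => G (x.1, x.2 + s)) = I2 e.D.Z.toPre univ G := by
  simp only [I2, Measure.restrict_univ]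
  exact (mp_sH s).lintegral_comp_emb (sH e s).measurableEmbedding fun x => ‖G x‖ₑ ^ 2

theorem sm_sh {u : e.Y.M × ℝ → V} (hu : Sm (IC e.Y.I) u) (s : ℝ) :
    Sm (IC e.Y.I) fun x : e.Y.M × ℝ => u (x.1, x.2 + s) := hu.comp (sm_sH s)

theorem tr1 (hε : Tendsto ε l (𝓝 0)) {u : e.Y.M × ℝ → V} (hu : Sm (IC e.Y.I) u) (b : Bool)
    {T : ℝ} (h : Hh e.D.Z.toPre (univ ×ˢ {t | T < pm b * t}) u) :
    Nl e.D.Z.toPre l (fun _ => univ ×ˢ {t | -1 < pm b * t}) fun i x => u (x.1, x.2 + ε i) - u x := by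
  have o : ∀ r, IsOpen ((univ : Set e.Y.M) ×ˢ {t | r < pm b * t}) := fun r =>
    isOpen_univ.prod (isOpen_lt continuous_const (by fun_prop))
  refine .mk' (.of_forall fun i => ⟨o _, fun x _ => (sm_sh hu _ x).sub (hu x)⟩) fun w => ?_
  have c := (sm_Dw (F := e.D.Z.toPre) hu w).continuous
  have m : MemLp ((univ ×ˢ {t | -2 < pm b * t}).indicator (e.D.Z.Dw w u)) 2 e.D.Z.μ := by
    rw [memLp_indicator_iff_restrict (o _).measurableSet,
      memLp_two_iff_integrable_sq_norm c.aestronglyMeasurable]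
    refine IntegrableOn.mono_set (((c.norm.pow 2).continuousOn.integrableOn_compact
      (isCompact_univ.prod (isCompact_Icc (a := -(|T| + 2)) (b := |T| + 2)))).union (h w))
      fun x hx => or_iff_not_imp_right.2 fun k => ⟨trivial, abs_le.1 ?_⟩
    have k1 : pm b * x.2 ≤ T := not_lt.1 fun k1 => k ⟨trivial, k1⟩
    have k2 : -2 < pm b * x.2 := hx.2
    rw [← Cut71.abs_pm b, abs_le]
    constructor <;> linarith [le_abs_self T, abs_nonneg T]
  refine tendsto_le ((tr0 m).comp hε) ((hε.abs.eventually_lt_const (by simp : |(0 : ℝ)| < 1)).mono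
    fun i hi => ?_)
  refine le_trans (le_of_eq (setLIntegral_congr_fun (o _).measurableSet fun x hx => ?_))
    (lintegral_mono_set (subset_univ _))
  have k1 : -1 < pm b * x.2 := hx.2
  have k2 := (abs_lt.1 ((Cut71.abs_pm b (ε i)).trans_lt hi)).1
  simp only
  rw [indicator_of_mem (mk_mem_prod (mem_univ _) (mem_ofPred.2 (by linarith))),
    indicator_of_mem (a := x) (mk_mem_prod (mem_univ _) (mem_ofPred.2 (by linarith))), ← Dw_sh (ε i) w (.of_forall fun _ => rfl), Dw_sub (sm_sh hu _) hu]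

theorem tr2 (hε : Tendsto ε l (𝓝 0)) {u : e.Y.M × ℝ → V} (hu : Sm (IC e.Y.I) u)
    {u₀ : Bool → e.Y.M × ℝ → V} (h0 : ∀ b, Sm (IC e.Y.I) (u₀ b))
    (i0 : ∀ b s (x : e.Y.M × ℝ), u₀ b (x.1, x.2 + s) = u₀ b x)
    (h : ∀ b, ∃ T, Hh e.D.Z.toPre (univ ×ˢ {t | T < pm b * t}) fun x => u x - u₀ b x) :
    Nl e.D.Z.toPre l (fun _ => univ) fun i x => u (x.1, x.2 + ε i) - u x := by
  have k := fun b => (tr1 hε (hu.sub (h0 b)) b (h b).choose_spec).congr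
    (f' := fun i x => u (x.1, x.2 + ε i) - u x) (.of_forall fun i x _ => by simp [i0])
  refine (k true).cover (k false) (.of_forall fun i => ⟨isOpen_univ, fun x _ => ?_⟩)
  rcases lt_or_ge (-1) x.2 with m | m
  exacts [.inl ⟨trivial, by simpa [pm] using m⟩, .inr ⟨trivial, by simp [pm]; linarith⟩]

variable {X : Mf 4} {nc : ℕ} {b : Bg X.I X.M κ lam ν nc} {K : Nk e b} (hp : K.p = none)
  (hq : K.q = none)
include hp hq

theorem src (z : e.Y.M × ℝ) : z ∈ K.ψ.source := by simp [K.src, hp, hq, Nd18.Jv]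

theorem tgt (z : X.M) : z ∈ K.ψ.target := by simp [K.tgt, hp, hq, Nd18.Jv]

theorem sm_ψ {u : X.M → V} (hu : Sm X.I u) : Sm (IC e.Y.I) fun z => u (K.ψ z) :=
  fun z => Pb50.sa_ψ K (src hp hq z) (hu _)

theorem I2_ψ {u : X.M → V} (hu : Sm X.I u) (w : List (Option κ)) :
    I2 b.F.toPre univ (b.F.Dw w u) = I2 e.D.Z.toPre univ (e.D.Z.Dw w fun z => u (K.ψ z)) := by
  have h := I2_iso K.iso isOpen_univ (fun z _ => src hp hq z) fun z _ => sm_Dw (F := b.F.toPre) hu w (K.ψ z)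
  rw [eq_univ_of_forall (s := K.ψ '' univ) fun z => ⟨_, trivial, K.ψ.right_inv (tgt hp hq z)⟩] at h
  exact h.symm.trans (congrArg _ (funext fun z => ((Pj41.fRel_of_iso K.iso).Dw (src hp hq z) w
    (.of_forall fun _ => rfl)).symm))

theorem key {f v : α → X.M → V} {u : X.M → V} (hv : ∀ i, Sm X.I (v i)) (hu : Sm X.I u)
    {O : α → Set X.M} (hO : ∀ᶠ i in l, IsOpen (O i) ∧
      ∀ z, K.ψ z ∈ O i → f i (K.ψ z) = v i (K.ψ (z.1, z.2 + ε i))) {w : List (Option κ)}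
    (h1 : Tendsto (fun i => I2 b.F.toPre univ (b.F.Dw w (v i - u))) l (𝓝 0))
    (h2 : Nl e.D.Z.toPre l (fun _ => univ) fun i z => u (K.ψ (z.1, z.2 + ε i)) - u (K.ψ z)) :
    N0 b.F.toPre l O fun i => b.F.Dw w (f i - u) := by
  let g : α → X.M → V := fun i x => v i (K.ψ ((K.ψ.symm x).1, (K.ψ.symm x).2 + ε i)) - u x
  have sg : ∀ i, Sm X.I (g i) := fun i x => ((sm_sh (sm_ψ hp hq (hv i)) (ε i) _).comp x
    (iso_smAt (iso_symm K.iso) (tgt hp hq x))).sub (hu x)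
  have s1 := fun i => sm_ψ hp hq ((hv i).sub hu)
  have h3 : N0 e.D.Z.toPre l (fun _ => univ) fun i =>
      e.D.Z.Dw w fun z => (v i - u) (K.ψ (z.1, z.2 + ε i)) :=
    ⟨.of_forall fun i => ⟨isOpen_univ, fun z _ => sm_Dw (sm_sh (s1 i) _) w z⟩, h1.congr fun i => by
      rw [I2_ψ hp hq (u := v i - u) ((hv i).sub hu), ← I2_sh _ (ε i)]
      exact congrArg _ (funext fun z => (Dw_sh _ w (.of_forall fun _ => rfl)).symm)⟩
  have h4 : N0 b.F.toPre l (fun _ => univ) fun i => b.F.Dw w (g i) :=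
    ⟨.of_forall fun i => ⟨isOpen_univ, fun z _ => sm_Dw (sg i) w z⟩,
      (h3.add (h2 w)).z.congr fun i => by
        rw [I2_ψ hp hq (sg i)]
        refine congrArg _ (funext fun z => (Dw_add_on isOpen_univ w (fun z _ => sm_sh (s1 i) _ z)
          (fun z _ => (sm_sh (sm_ψ hp hq hu) _ z).sub (sm_ψ hp hq hu z)) z trivial).symm.trans ?_)
        simp [g, K.ψ.left_inv (src hp hq _)]⟩
  refine (h4.sub (hO.mono fun i k => ⟨k.1, subset_univ _⟩)).congr (hO.mono fun i k x hx =>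
    Dw_on k.1 w (fun y hy => congrArg (· - u y) ?_) hx)
  rw [← k.2 _ ((K.ψ.right_inv (tgt hp hq y)).symm ▸ hy), K.ψ.right_inv (tgt hp hq y)]

end Crest.Agent.X212.Shf6
end
end

-- ▼ part X212/Unq6/Cy
section

/-!
# Row 212, DEG-UNIQ (helper6), part 1: limits of gauges, shifted sequences on the cylinder, centring
-/

set_option autoImplicit false
set_option linter.unusedSectionVars false
noncomputable section
open scoped Manifold ContDiff Topology InnerProductSpace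
open MeasureTheory Set Function Filter

namespace Crest.Agent.X212.Unq6
open An Sw Sob92 Cyf70 Sw.En3 Pb50
open Wz78 (SA)
open M (Mf pm)
open Sm10 (Zs)
open Sm10.Dg (ac)
open Sw21 (Lg)
open Cut71 (shf At pm_sq pm_not)
open Win39 (jt)
open Real (smoothTransition)

variable {κ lam ν : Type} [Fintype κ] [Fintype lam] [Fintype ν] [DecidableEq ν] {α : Type}

section gen
variable {E : Type} [NormedAddCommGroup E] [NormedSpace ℝ E] [FiniteDimensional ℝ E]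
  [MeasurableSpace E] [BorelSpace E]
  {HM : Type} [TopologicalSpace HM] {I : ModelWithCorners ℝ E HM} [I.Boundaryless]
  {M : Type} [TopologicalSpace M] [ChartedSpace HM M] [IsManifold I ∞ M]
  [MeasurableSpace M] [T2Space M] [BorelSpace M]

/-- locally uniform convergence -/
def CV (l : Filter α) (c : α → Cfg M κ ν) (x : Cfg M κ ν) : Prop :=
  (∀ k, TendstoLocallyUniformly (fun i => (c i).a k) (x.a k) l) ∧
    TendstoLocallyUniformly (fun i => (c i).Φ) x.Φ l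

/-- limits of gauge equivalent sequences are equivalent -/
theorem limB (F : Pre I M (Option κ)) (J : En ν) (𝒰 : Ultrafilter α) {u : α → M → ℂ}
    {c c' : α → Cfg M κ ν} {x x' : Cfg M κ ν}
    (hu : ∀ z, ∃ O ∈ 𝓝 z, ∀ᶠ i in (𝒰 : Filter α), ∀ y ∈ O, LG I (u i) y ∧
      At id (c' i) (ac F J (u i) (c i)) y)
    (h : CV 𝒰 c x) (h' : CV 𝒰 c' x') (s : ∀ k, Sm I (x.a k)) (s' : ∀ k, Sm I (x'.a k)) :
    ∃ v, Gau I v ∧ x' = ac F J v x ∧ TendstoLocallyUniformly u v 𝒰 := by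
  obtain ⟨v, v1, v2, v3, v4⟩ := Sw21.lim_loc F 𝒰 (u := u) (δ := fun k => x.a k - x'.a k)
    (fun z => (hu z).imp fun O k => ⟨k.1, k.2.mono fun i hi y hy =>
      ⟨(hi y hy).1.sm.md, (hi y hy).1.one.self_of_nhds⟩⟩) (fun k => (s k).sub (s' k)) fun k =>
    tendstoLocallyUniformly_iff_filter.2 fun z => by
      obtain ⟨O, h1, h2⟩ := hu z
      refine (tendstoLocallyUniformly_iff_filter.1 ((h.1 k).sub (h'.1 k)) z).congr
        ((h2.prod_mk h1).mono fun p hp => ?_)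
      exact (congrArg (_ - ·) ((hp.1 _ hp.2).2.1 k)).trans (sub_sub_cancel _ _)
  refine ⟨v, ⟨v1, v2⟩, Cfg.ext (funext₂ fun k y => ?_) (funext fun y => ?_), v4⟩
  · exact ((congrArg (_ - ·) (v3 k y)).trans (sub_sub_cancel _ _)).symm
  · obtain ⟨O, h1, h2⟩ := hu y
    have p : ∀ {N : Type} [UniformSpace N] {f : α → M → N} {g : M → N},
        TendstoLocallyUniformly f g 𝒰 → Tendsto (fun i => f i y) 𝒰 (𝓝 (g y)) := fun k =>
      (tendstoLocallyUniformlyOn_univ.2 k).tendsto_at trivial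
    exact tendsto_nhds_unique_of_eventuallyEq (p h'.2) (((cB J).continuous₂.tendsto (v y, x.Φ y)).comp
      ((p v4).prodMk_nhds (p h.2))) (h2.mono fun i hi => (hi y (mem_of_mem_nhds h1)).2.2)

end gen

theorem act_φ {X X' : Mf 4} {nc nc' : ℕ} {b : Bg X.I X.M κ lam ν nc} {b' : Bg X'.I X'.M κ lam ν nc'}
    {φ : OpenPartialHomeomorph X.M X'.M} (h : b.Lit b' φ) {x : X.M} (hx : x ∈ φ.source)
    (u : X'.M → ℂ) (c : Cfg X'.M κ ν) :
    At id ((b'.act u c).pb φ) (b.act (fun y => u (φ y)) (c.pb φ)) x :=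
  ⟨fun k => congrArg (fun z => c.a k (φ x) - (star (u (φ x)) * z).im)
    ((Cut71.rel h).D hx k (.of_forall fun _ => rfl)).symm,
    congrArg (fun J => cs J (u (φ x)) (c.Φ (φ x))) h.J⟩

theorem tri (𝒰 : Ultrafilter α) {f : α → ℝ} (h1 : ¬Tendsto f 𝒰 atTop)
    (h2 : ¬Tendsto (fun i => -f i) 𝒰 atTop) : ∃ d, Tendsto f 𝒰 (𝓝 d) := by
  simp only [tendsto_atTop, not_forall, ← Ultrafilter.eventually_not, not_le] at h1 h2
  obtain ⟨a, h1⟩ := h1
  obtain ⟨b, h2⟩ := h2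
  obtain ⟨d, -, h⟩ := (isCompact_Icc (a := -b) (b := a)).ultrafilter_le_nhds (𝒰.map f)
    (le_principal_iff.2 ((h1.and h2).mono fun i hi => ⟨by linarith [hi.2], hi.1.le⟩))
  exact ⟨d, h⟩

/-! ### centring -/

theorem cen_real {f : ℝ → ℝ} {A B d : ℝ} (hf : Continuous f) (h1 : ∀ᶠ t in atBot, f t = A)
    (h2 : ∀ᶠ t in atTop, f t = B) (hAB : A ≠ B)
    (e : ∀ s ∈ ({0, d} : Set ℝ), ∫ t, (1 - smoothTransition t) * (-1 * (f (t + s) - A)) =
      ∫ t, smoothTransition t * (1 * (f (t + s) - B))) : d = 0 := by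
  have cs : Continuous smoothTransition := smoothTransition.continuous
  have z : ∀ᶠ t in atBot, smoothTransition t = 0 :=
    (eventually_le_atBot 0).mono fun _ => smoothTransition.zero_of_nonpos
  have o : ∀ᶠ t in atTop, smoothTransition t = 1 :=
    (eventually_ge_atTop 1).mono fun _ => smoothTransition.one_of_one_le
  have hc : ∀ {g : ℝ → ℝ}, (∀ᶠ t in atBot, g t = 0) → (∀ᶠ t in atTop, g t = 0) →
      HasCompactSupport g := fun a b => by
    rw [hasCompactSupport_iff_eventuallyEq, coclosedCompact_eq_cocompact, cocompact_eq_atBot_atTop]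
    exact eventually_sup.2 ⟨a, b⟩
  have sb : ∀ s : ℝ, Tendsto (· + s) atBot atBot := fun s => tendsto_atBot_add_const_right _ s tendsto_id
  have st : ∀ s : ℝ, Tendsto (· + s) atTop atTop := fun s => tendsto_atTop_add_const_right _ s tendsto_id
  let g : ℝ → ℝ → ℝ := fun s t => A + (B - A) * smoothTransition (t + -s) - f t
  have ig : ∀ s, Integrable (g s) := fun s => Continuous.integrable_of_hasCompactSupport
    (by fun_prop)
    (hc ((h1.and ((sb (-s)).eventually z)).mono fun t ⟨a, b⟩ => by simp only [g, a, b]; ring)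
      ((h2.and ((st (-s)).eventually o)).mono fun t ⟨a, b⟩ => by simp only [g, a, b]; ring))
  have k : ∀ s ∈ ({0, d} : Set ℝ), ∫ t, g s t = 0 := fun s hs => by
    rw [← integral_add_right_eq_self _ s, ← sub_eq_zero.2 (e s hs), ← integral_sub]
    · exact congrArg _ (funext fun t => by simp only [g, add_neg_cancel_right]; ring)
    · exact Continuous.integrable_of_hasCompactSupport (by fun_prop)
        (hc (((sb s).eventually h1).mono fun t ht => by simp [ht]) (o.mono fun t ht => by simp [ht]))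
    · exact Continuous.integrable_of_hasCompactSupport (by fun_prop)
        (hc (z.mono fun t ht => by simp [ht]) (((st s).eventually h2).mono fun t ht => by simp [ht]))
  have k1 : ∀ s s' : ℝ, s < s' → ∫ t, g s t = 0 → ∫ t, g s' t ≠ 0 := fun s s' hs a b => by
    have p := Continuous.integral_pos_of_hasCompactSupport_nonneg_nonzero (μ := volume) (x := s')
      (f := fun t => smoothTransition (t + -s) - smoothTransition (t + -s')) (by fun_prop)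
      (hc ((((sb _).eventually z).and ((sb _).eventually z)).mono fun t ht => by rw [ht.1, ht.2, sub_self])
        ((((st _).eventually o).and ((st _).eventually o)).mono fun t ht => by rw [ht.1, ht.2, sub_self]))
      (fun t => sub_nonneg.2 (smoothTransition.monotone (by linarith))) (by
        simpa using (smoothTransition.pos_of_pos (x := s' + -s) (by linarith)).ne')
    have q := integral_sub (ig s) (ig s')
    rw [a, b, sub_self, show (fun t => g s t - g s' t) = fun t => (B - A) *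
      (smoothTransition (t + -s) - smoothTransition (t + -s')) from funext fun t => by
        simp only [g]; ring, integral_const_mul] at q
    exact mul_ne_zero (sub_ne_zero.2 hAB.symm) p.ne' q
  rcases lt_trichotomy d 0 with h | h | h
  exacts [(k1 _ _ h (k d (by simp)) (k 0 (by simp))).elim, h,
    (k1 _ _ h (k 0 (by simp)) (k d (by simp))).elim]

variable {e : En3 κ lam ν} {l : Filter α} {b : Bool} {J : α → Set ℝ} {c c' : α → e.ZC}
  {u : α → e.Y.M × ℝ → ℂ} {δ δ' : α → ℝ} {J' : Set ℝ} {x x' : e.ZC} {v v' : e.YC}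

/-- distance of jets -/
def dj (v v' : e.YC) (η : ℝ) : Prop := ∀ y, ‖jt v y - jt v' y‖ ≤ η

theorem dj_of {T : Set ℝ} {t η : ℝ} (h : Cl x x' T 1 η) (ht : t ∈ T) (a : ∀ y, LA e.cyl x (y, t))
    (a' : ∀ y, LA e.cyl x' (y, t)) : dj (sl x t) (sl x' t) η := fun y => by
  have h0 := Win39.Cl.pt h (x := (y, t)) ⟨trivial, ht⟩
  have h1 := fun i => h [some i] le_rfl (y, t) ⟨trivial, ht⟩
  have hη := (norm_nonneg _).trans h0.2
  have D : ∀ {N : Type} [NormedAddCommGroup N] [NormedSpace ℝ N] {f g : e.Y.M × ℝ → N},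
      (∀ y, SA (IC e.Y.I) f (y, t)) → (∀ y, SA (IC e.Y.I) g (y, t)) → ∀ i,
      e.D.F.D i (fun y => f (y, t)) y - e.D.F.D i (fun y => g (y, t)) y =
        e.D.Z.D (some i) (f - g) (y, t) := fun f g i =>
    ((D_some_at e.D.F.toPre (SA.md ((f y).sub (g y))) i).trans
      (dv_sub (SA.md (sm_sl f y)) (SA.md (sm_sl g y)))).symm
  refine max_le ((pi_norm_le_iff_of_nonneg hη).2 fun k => h0.1 (some k)) (max_le
    ((pi_norm_le_iff_of_nonneg hη).2 fun i => (pi_norm_le_iff_of_nonneg hη).2 fun k => ?_)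
    (max_le h0.2 ((pi_norm_le_iff_of_nonneg hη).2 fun i => ?_)))
  · exact (congrArg norm (D (fun y => (a y).sa _) (fun y => (a' y).sa _) i)).trans_le
      ((h1 i).1 (some k))
  · exact (congrArg norm (D (fun y => (a y).sΦ) (fun y => (a' y).sΦ) i)).trans_le (h1 i).2

/-- convergence at the end `b` -/
def Dc (b : Bool) (x : e.ZC) (v : e.YC) : Prop :=
  Crit v ∧ ∀ η > 0, ∃ T, ∀ t, T < pm b * t → dj (sl x t) v η

/-- the shifted configurations converge to `x` on `J'` -/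
structure Sd (l : Filter α) (b : Bool) (J : α → Set ℝ) (c : α → e.ZC) (δ : α → ℝ) (J' : Set ℝ)
    (x : e.ZC) : Prop where
  adm : ∀ z ∈ univ ×ˢ J', LA e.cyl x z
  ad : ∀ᶠ i in l, (J i).OrdConnected ∧ ∀ z ∈ univ ×ˢ J i, LA e.cyl (c i) z
  mem : ∀ τ ∈ J', ∀ᶠ i in l, τ + δ i ∈ J i
  cl : ∀ R, ∀ η > 0, ∀ᶠ i in l,
    Cl (shf (δ i) (c i)) x {τ ∈ J' | pm b * τ < R ∧ τ + δ i ∈ J i} 1 η

theorem Sd.near (h : Sd l b J c δ J' x) {b' : Bool} (hd : Dc b' x v) {η : ℝ} (hη : 0 < η) :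
    ∃ T, ∀ R, ∀ᶠ i in l, ∀ s ∈ J i, s - δ i ∈ J' → pm b * (s - δ i) < R → T < pm b' * (s - δ i) →
      e.cyl.Adm (fz (sl (c i) s)) ∧ dj (sl (c i) s) v η := by
  obtain ⟨T, hT⟩ := hd.2 _ (half_pos hη)
  refine ⟨T, fun R => ((h.cl R _ (half_pos hη)).and h.ad).mono fun i hi s h1 h2 h3 h4 =>
    ⟨sl_adm fun y => hi.2.2 _ ⟨trivial, h1⟩, fun y => ?_⟩⟩
  have h5 : s - δ i + δ i = s := sub_add_cancel _ _
  have := dj_of hi.1 (t := s - δ i) ⟨h2, h3, h5.symm ▸ h1⟩ (fun y => Cut71.la_sh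
    (.of_forall (At.pb _ _)) (hi.2.2 _ ⟨trivial, h5.symm ▸ h1⟩)) (fun y => h.adm _ ⟨trivial, h2⟩) y
  rw [Cut71.sl_shf, h5] at this
  linarith [norm_sub_le_norm_sub_add_norm_sub (jt (sl (c i) s) y) (jt (sl x (s - δ i)) y) (jt v y),
    hT _ h4 y]

/-- the shifts do not diverge -/
theorem bdd [l.NeBot] (he : e.OK) (h : Sd l b J c δ univ x) (h' : Sd l b J c' δ' univ x')
    (hd : Dc b x v) (hd' : Dc (!b) x' v') (hL : L v ≠ L v')
    (hc : ∀ᶠ i in l, ∀ s ∈ J i, L (sl (c' i) s) = L (sl (c i) s)) :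
    ¬Tendsto (fun i => pm b * (δ' i - δ i)) l atTop := fun k => by
  have p : 0 < |L v - L v'| / 3 := by have := abs_pos.2 (sub_ne_zero.2 hL); positivity
  obtain ⟨η, h1, h2⟩ := Win39.cont1 he hd.1.1 p
  obtain ⟨η', h3, h4⟩ := Win39.cont1 he hd'.1.1 p
  obtain ⟨T, h5⟩ := h.near hd h1
  obtain ⟨T', h6⟩ := h'.near hd' h3
  have q := pm_sq b
  obtain ⟨i, a1, a2, a3, a4, a5⟩ := ((h5 (T + 2)).and ((h6 (-T')).and ((h.mem (pm b * (T + 1))
    trivial).and (hc.and (k.eventually_gt_atTop (T + 1 + T')))))).exists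
  have e1 : pm b * (pm b * (T + 1) + δ i - δ i) = T + 1 := by linear_combination (T + 1) * q
  have e2 : pm b * (pm b * (T + 1) + δ i - δ' i) < -T' := by linarith [mul_assoc (pm b) (pm b) (T + 1), congrArg (· * (T + 1)) q]
  obtain ⟨b1, b2⟩ := a1 _ a3 trivial (by linarith) (by linarith)
  obtain ⟨b3, b4⟩ := a2 _ a3 trivial e2 (by rw [pm_not]; linarith)
  have b5 := (h2 _ b1 b2).1
  have b6 := (h4 _ b3 b4).1
  rw [a4 _ a3, abs_sub_comm] at b6
  have := abs_sub_le (L v') (L (sl (c i) (pm b * (T + 1) + δ i))) (L v)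
  rw [abs_sub_comm (L v')] at this
  linarith

theorem cv_fz {w : α → e.YC} (h : ∀ η > 0, ∀ᶠ i in l, dj (w i) v η) :
    CV l (fun i => fz (w i)) (fz v) := by
  refine ⟨fun k => TendstoUniformly.tendstoLocallyUniformly (Metric.tendstoUniformly_iff.2
    fun ε hε => (h _ (half_pos hε)).mono fun i hi z => ?_), TendstoUniformly.tendstoLocallyUniformly
    (Metric.tendstoUniformly_iff.2 fun ε hε => (h _ (half_pos hε)).mono fun i hi z => ?_)⟩
  · cases k with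
    | none => exact (dist_self _).trans_lt hε
    | some k => exact (dist_comm _ _).trans_lt (((norm_le_pi_norm _ k).trans
        ((norm_fst_le _).trans (hi z.1))).trans_lt (half_lt_self hε))
  · exact ((dist_comm _ _).trans (dist_eq_norm _ _)).trans_lt (((norm_fst_le _).trans
      ((norm_snd_le _).trans ((norm_snd_le _).trans (hi z.1)))).trans_lt (half_lt_self hε))

/-- the limits at the end differ by a null-homotopic gauge transformation -/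
theorem eq0 [l.NeBot] (h : Sd l b J c δ J' x) (h' : Sd l b J c' δ' J' x') {C T₀ : ℝ}
    (hC : ∀ᶠ i in l, |δ' i - δ i| ≤ C) (hd : Dc b x v) (hd' : Dc b x' v')
    (hJ : ∀ t, T₀ < pm b * t → t ∈ J') (hu : ∀ᶠ i in l, ∀ s ∈ J i, ∃ g, Lg e.Y.I g ∧
      fz (sl (c' i) s) = e.cyl.act (fun z => g z.1) (fz (sl (c i) s))) : Eq0 v v' := by
  have k : ∀ η : ℝ, ∃ (g : e.Y.M → ℂ) (w w' : e.YC), Lg e.Y.I g ∧
      fz w' = e.cyl.act (fun z => g z.1) (fz w) ∧ (0 < η → dj w v η ∧ dj w' v' η) := fun η => by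
    by_cases hη : 0 < η
    swap
    · exact ⟨_, v, v, Sw21.Lg.one, (act_one _).symm, fun k => (hη k).elim⟩
    obtain ⟨T, h1⟩ := h.near hd hη
    obtain ⟨T', h2⟩ := h'.near hd' hη
    obtain ⟨R, r⟩ : ∃ R, R = |T| + |T'| + |T₀| + |C| + 1 := ⟨_, rfl⟩
    have := le_abs_self T; have := le_abs_self T'; have := le_abs_self T₀; have := le_abs_self C
    have := abs_nonneg T; have := abs_nonneg T'; have := abs_nonneg T₀; have := abs_nonneg C
    have q : pm b * (pm b * R) = R := by rw [← mul_assoc, pm_sq, one_mul]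
    obtain ⟨i, a1, a2, a3, a4, a5⟩ := ((h1 (R + 1)).and ((h2 (R + C + 1)).and
      ((h.mem (pm b * R) (hJ _ (by linarith))).and (hu.and hC)))).exists
    obtain ⟨g, g1, g2⟩ := a4 _ a3
    have e1 : pm b * (pm b * R + δ i - δ i) = R := by rw [add_sub_cancel_right, q]
    obtain ⟨e2, e3⟩ := abs_le.1 ((Cut71.abs_pm b _).trans_le a5)
    have e4 : pm b * (pm b * R + δ i - δ' i) = R - pm b * (δ' i - δ i) := by linarith
    exact ⟨g, _, _, g1, g2, fun _ => ⟨(a1 _ a3 (hJ _ (by linarith)) (by linarith) (by linarith)).2,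
      (a2 _ a3 (hJ _ (by linarith)) (by linarith) (by linarith)).2⟩⟩
  choose g w w' k1 k2 k3 using k
  let 𝒰 := Ultrafilter.of (𝓝[>] (0 : ℝ))
  have ev : ∀ η > 0, ∀ᶠ r in (𝒰 : Filter ℝ), dj (w r) v η ∧ dj (w' r) v' η := fun η hη =>
    mem_of_superset (Ultrafilter.of_le _ (Ioo_mem_nhdsGT hη)) fun r hr =>
      ⟨fun y => ((k3 r hr.1).1 y).trans hr.2.le, fun y => ((k3 r hr.1).2 y).trans hr.2.le⟩
  obtain ⟨U, u1, u2, u3⟩ := limB e.D.Z.toPre e.m.J 𝒰 (u := fun r z => g r z.1)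
    (fun z => ⟨univ, univ_mem, .of_forall fun r y _ => ⟨.of_gau (gau_fst ⟨(k1 r).sm, (k1 r).norm⟩) y,
      by rw [k2]; exact ⟨fun _ => rfl, rfl⟩⟩⟩)
    (cv_fz fun η hη => (ev η hη).mono fun _ h => h.1) (cv_fz fun η hη => (ev η hη).mono fun _ h => h.2)
    hd.1.1.sa hd'.1.1.sa
  obtain ⟨χ, c1, c2⟩ := Sw21.Lg.lim (U := fun y => U (y, 0)) (.of_forall k1) (sm_sl fun y => u1.1 _)
    (fun y => u1.2 _) (tendstoLocallyUniformly_iff_tendstoUniformly_of_compactSpace.1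
      (u3.comp (fun y => (y, (0 : ℝ))) (by fun_prop)))
  refine ⟨χ, c1, ?_⟩
  have := sl_act (s := 0) (fz v) fun y => u1.1 (y, 0)
  simp only [c2] at this
  exact (congrArg (fun c => fz (sl c 0)) u2).trans this

theorem Sd.ev (h : Sd l b J c δ univ x) {d : ℝ} (hd : Tendsto (fun i => δ' i - δ i) l (𝓝 d))
    (t : ℝ) : ∀ᶠ i in l, |δ' i - δ i - d| < 1 ∧ ∀ s ∈ Ioo (t - 1) (t + 1), s + δ' i ∈ J i := by
  filter_upwards [h.mem (t + d - 2) trivial, h.mem (t + d + 2) trivial, h.ad,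
    Metric.tendsto_nhds.1 hd 1 one_pos] with i h1 h2 h3 h4
  refine ⟨h4, fun s hs => h3.1.out h1 h2 ?_⟩
  obtain ⟨h5, h6⟩ := abs_lt.1 h4
  exact ⟨by linarith [hs.1], by linarith [hs.2]⟩

theorem Sd.cv (h : Sd l b J c δ univ x) {d : ℝ} (hd : Tendsto (fun i => δ' i - δ i) l (𝓝 d)) :
    CV l (fun i => shf (δ' i) (c i)) (shf d x) := by
  have a : e.cyl.Adm x := adm_of fun z => h.adm z ⟨trivial, trivial⟩
  have k : ∀ {N : Type} [NormedAddCommGroup N] {f : α → e.Y.M × ℝ → N} {g : e.Y.M × ℝ → N},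
      Continuous g → (∀ R, ∀ η > 0, ∀ᶠ i in l, ∀ z : e.Y.M × ℝ, pm b * z.2 < R → z.2 + δ i ∈ J i →
        ‖f i (z.1, z.2 + δ i) - g z‖ ≤ η) → TendstoLocallyUniformly
        (fun i (z : e.Y.M × ℝ) => f i (z.1, z.2 + δ' i)) (fun z => g (z.1, z.2 + d)) l := by
    intro N _ f g hg hf
    refine tendstoLocallyUniformly_iff_filter.2 fun z => Metric.tendstoUniformlyOnFilter_iff.2
      fun ε hε => ?_
    have t : ∀ {r : α × e.Y.M × ℝ → ℝ}, Tendsto r (l ×ˢ 𝓝 z) (𝓝 d) → Tendsto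
        (fun p => g (p.2.1, p.2.2 + r p)) (l ×ˢ 𝓝 z) (𝓝 (g (z.1, z.2 + d))) := fun hr =>
      (hg.tendsto _).comp (((continuous_fst.tendsto z).comp tendsto_snd).prodMk_nhds
        (((continuous_snd.tendsto z).comp tendsto_snd).add hr))
    filter_upwards [(t tendsto_const_nhds).dist (t (hd.comp tendsto_fst))
      (gt_mem_nhds ((dist_self _).trans_lt (half_pos hε))), ((hf (|z.2| + |d| + 2) _ (half_pos hε)).and
      (h.ev hd z.2)).prod_mk (continuous_snd.tendsto z (Ioo_mem_nhds (sub_one_lt _) (lt_add_one _)))]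
      with p h1 ⟨⟨h2, h3, h4⟩, h5⟩
    have e1 : p.2.2 + (δ' p.1 - δ p.1) + δ p.1 = p.2.2 + δ' p.1 := by ring
    have h6 := h2 (p.2.1, p.2.2 + (δ' p.1 - δ p.1)) ((le_abs_self _).trans_lt (by
      rw [Cut71.abs_pm, abs_lt]
      obtain ⟨h6, h7⟩ := abs_lt.1 h3
      constructor <;> linarith [h5.1, h5.2, le_abs_self z.2, neg_abs_le z.2, le_abs_self d,
        neg_abs_le d])) (e1.symm ▸ h4 _ h5)
    rw [e1, ← dist_eq_norm, dist_comm] at h6
    exact (dist_triangle _ _ _).trans_lt ((add_lt_add_of_lt_of_le h1 h6).trans_eq (add_halves ε))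
  exact ⟨fun i => k (f := fun j => (c j).a i) (a.sa i).continuous fun R η hη => (h.cl R η hη).mono
      fun j hj z h1 h2 => (Win39.Cl.pt hj (x := z) ⟨trivial, trivial, h1, h2⟩).1 i,
    k (f := fun j => (c j).Φ) a.sΦ.continuous fun R η hη => (h.cl R η hη).mono
      fun j hj z h1 h2 => (Win39.Cl.pt hj (x := z) ⟨trivial, trivial, h1, h2⟩).2⟩

theorem shf_zero (x : e.ZC) : shf 0 x = x := by simp only [shf, add_zero]; rfl

/-- the limit gauge on the cylinder -/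
theorem limZ (𝒰 : Ultrafilter α) (h : Sd 𝒰 b J c δ univ x) (h' : Sd 𝒰 b J c' δ' univ x') {d : ℝ}
    (hd : Tendsto (fun i => δ' i - δ i) 𝒰 (𝓝 d)) (hu : ∀ᶠ i in (𝒰 : Filter α), ∀ z ∈ univ ×ˢ J i,
      LG (IC e.Y.I) (u i) z ∧ At id (c' i) (e.cyl.act (u i) (c i)) z) :
    ∃ v, Gau (IC e.Y.I) v ∧ x' = e.cyl.act v (shf d x) := by
  have a : e.cyl.Adm (shf d x) := adm_of fun z =>
    Cut71.la_sh (.of_forall (At.pb _ _)) (h.adm _ ⟨trivial, trivial⟩)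
  obtain ⟨v, v1, v2, -⟩ := limB e.D.Z.toPre e.m.J 𝒰 (u := fun i z => u i (z.1, z.2 + δ' i))
    (fun z => ⟨univ ×ˢ Ioo (z.2 - 1) (z.2 + 1), prod_mem_nhds univ_mem
      (Ioo_mem_nhds (sub_one_lt _) (lt_add_one _)), ((h.ev hd z.2).and hu).mono fun i hi y hy => by
        obtain ⟨k1, k2⟩ := hi.2 (y.1, y.2 + δ' i) ⟨trivial, hi.1.2 _ hy.2⟩
        have k3 := act_φ (Cut71.sH_lit (e := e) (δ' i)) (x := y) trivial (u i) (c i)
        exact ⟨⟨k1.sm.comp y (Cut71.sm_sH _ y), (Cut71.sm_sH _ y).continuousAt.eventually k1.one⟩,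
          fun k => (k2.1 k).trans (k3.1 k), k2.2.trans k3.2⟩⟩)
    (h.cv hd) (shf_zero x' ▸ h'.cv (δ' := δ') (by simp)) a.sa
    fun k z => (h'.adm z ⟨trivial, trivial⟩).sa k
  exact ⟨v, v1, v2⟩

theorem cont_L (he : e.OK) (a : e.cyl.Adm x) : Continuous fun t => L (sl x t) := by
  have D : ∀ {N : Type} [NormedAddCommGroup N] [NormedSpace ℝ N] {f : e.Y.M × ℝ → N},
      Sm (IC e.Y.I) f → ∀ i, Continuous fun p : ℝ × e.Y.M => e.D.F.D i (fun y => f (y, p.1)) p.2 :=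
    fun f i => ((e.D.Z.sm_D f (some i)).continuous.comp continuous_swap).congr fun p =>
      D_some_at e.D.F.toPre (SA.md (f _)) i
  refine (Win39.cont_lJ he (j := fun t => jt (sl x t)) ((continuous_pi fun k =>
    (a.sa (some k)).continuous.comp continuous_swap).prodMk ((continuous_pi fun i => continuous_pi
      fun k => D (a.sa (some k)) i).prodMk ((a.sΦ.continuous.comp continuous_swap).prodMk
        (continuous_pi fun i => D a.sΦ i))))).congr fun t => ?_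
  exact (Win39.L_jt he (fun k => sm_sl fun _ => a.sa _ _) (sm_sl fun _ => a.sΦ _)).symm

theorem lb_end (he : e.OK) (a : e.cyl.Adm x) (hd : Dc b x v) (g : En3.Gd v) :
    ∃ T, ∀ t, T < pm b * t → e.ψ (lb x t) = e.ψ (L v) := by
  obtain ⟨ε, h1, h2⟩ := Metric.eventually_nhds_iff.1 g.flat
  obtain ⟨η, h3, h4⟩ := Win39.cont1 he hd.1.1 (half_pos h1)
  obtain ⟨T, h5⟩ := hd.2 η h3
  refine ⟨T + 1, fun t ht => h2 ((Win45.av_le ((cont_L he a).comp (by fun_prop)).continuousOn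
    fun p hp => (h4 _ (sl_adm fun _ => .of_adm a _) (h5 _ ?_)).1).trans_lt (half_lt_self h1))⟩
  cases b <;> simp only [pm, if_true, Bool.false_eq_true, if_false] at ht ⊢ <;> linarith [hp.1, hp.2]

/-- centred trajectories are not shifted -/
theorem cen (he : e.OK) {β : Bool → e.YC} (a : e.cyl.Adm x) (hd : ∀ b, Dc b x (β b))
    (g : ∀ b, En3.Gd (β b)) (hψ : e.ψ (L (β false)) ≠ e.ψ (L (β true))) {d : ℝ}
    {w : e.Y.M × ℝ → ℂ} (hw : Gau (IC e.Y.I) w)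
    (k : ∀ y ∈ ({x, e.cyl.act w (shf d x)} : Set e.ZC),
      ∫ t, (1 - smoothTransition t) * (-1 * (e.ψ (lb y t) - e.ψ (L (β false)))) =
        ∫ t, smoothTransition t * (1 * (e.ψ (lb y t) - e.ψ (L (β true))))) : d = 0 := by
  have cb : Continuous bp := (smoothTransition.contDiff (n := 1)).continuous_deriv le_rfl
  obtain ⟨T, h1⟩ := lb_end he a (hd false) (g false)
  obtain ⟨T', h2⟩ := lb_end he a (hd true) (g true)
  refine cen_real (f := fun t => e.ψ (lb x t)) (he.sψ.continuous.comp (continuousOn_univ.1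
    (continuousOn_integral_of_compact_support (isCompact_Icc (a := 0) (b := 1))
      ((cb.comp continuous_snd).mul ((cont_L he a).comp (by fun_prop))).continuousOn
      fun _ _ _ h => mul_eq_zero_of_left (bp_zero h) _)))
    ((eventually_lt_atBot (-T)).mono fun t ht => h1 t (by simp only [pm]; norm_num; linarith))
    ((eventually_gt_atTop T').mono fun t ht => h2 t (by simpa [pm] using ht)) hψ ?_
  rintro s (rfl | rfl)
  · simpa only [add_zero] using k x (by simp)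
  · have : ∀ t, lb (e.cyl.act w (shf s x)) t = lb x (t + s) := fun t =>
      (lb_congr fun _ _ => (g true).inv _ _ (sl_adm fun _ => Cut71.la_sh (.of_forall (At.pb _ _))
        (.of_adm a _)) (eqv_sl _ fun _ => .of_gau hw _)).trans (Cut71.lb_shf _ _ _)
    simpa only [this] using k _ (.inr rfl)

end Crest.Agent.X212.Unq6
end
end

-- ▼ part X212/Unq6/Main

/-!
# Row 212, DEG-UNIQ (helper6), part 2: uniqueness of the limit of a degeneration
-/

set_option autoImplicit false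
set_option linter.unusedSectionVars false
noncomputable section
open scoped Manifold ContDiff Topology InnerProductSpace
open MeasureTheory Set Function Filter

namespace Crest.Agent.X212.Unq6
open An Sw Sob92 Cyf70 Sw.En3 Pb50
open M (Mf pm)
open Sm10 (DSid UniqP)
open Sm10.Dg (alC)
open Sw21 (Lg)
open Cut71 (shf At pm_sq)

variable {κ lam ν : Type} [Fintype κ] [Fintype lam] [Fintype ν] [DecidableEq ν] {α : Type}
  {X X' : Mf 4} {nc nc' nr' : ℕ}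

section nk
variable {e : En3 κ lam ν} {b : Bg X.I X.M κ lam ν nc} (K : Nk e b) {s : Bool}

theorem oc_J : K.J.OrdConnected :=
  ⟨fun _ h _ h' _ k => ⟨fun a ha => (h.1 a ha).trans_le k.1, fun a ha => k.2.trans_lt (h'.2 a ha)⟩⟩

theorem far_J (h : K.Inf s) {D : ℝ} : ∃ T, ∀ t, T < pm s * t → t ∈ K.deep D := by
  refine ⟨|K.p.getD 0| + |K.q.getD 0| + D, fun t ht =>
    Sep15.S.mem_Jv_map.2 ⟨fun a ha => ?_, fun a ha => ?_⟩⟩
  all_goals
    cases s <;> simp only [Nk.Inf, pm, if_true, Bool.false_eq_true, if_false, Option.mem_def.1 ha,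
      Option.getD_some, reduceCtorEq] at h ht ⊢
    linarith [le_abs_self a, neg_abs_le a, abs_nonneg (K.p.getD 0), abs_nonneg (K.q.getD 0)]

theorem lg_end (he : e.OK) (h : K.Inf s) {u : X.M → ℂ} (hu : Gau X.I u) (g : K.AsyG s u) {t : ℝ}
    (ht : t ∈ K.J) : Lg e.Y.I fun y => u (K.ψ (y, t)) := by
  obtain ⟨T, g⟩ := g
  obtain ⟨T', k⟩ := far_J K h (D := 1)
  obtain ⟨r, h1, h2⟩ := (((Sm10.Dg.hh_nl K (fun _ hx => (sa_ψ K hx (hu.1 _)).sub contMDiffAt_const)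
    g tendsto_id).cyl he one_pos (Sm10.Dg.far_win K h tendsto_id) 0 1 one_pos).and
    (eventually_ge_atTop T')).exists
  have q : pm s * (pm s * (r + 2)) = r + 2 := by rw [← mul_assoc, pm_sq, one_mul]
  have h3 := deep_J K one_pos (k (pm s * (r + 2)) (by linarith))
  exact Sw21.Lg.cyl (u := fun z => u (K.ψ z)) (oc_J K).isPreconnected (fun z hz =>
    (sa_ψ K (K.mem_src.2 hz.2) (hu.1 _)).contMDiffWithinAt) (fun _ _ => hu.2 _) h3 ht
    (Sw21.Lg.one.near (sm_sl fun y => sa_ψ K (src K h3 y) (hu.1 _)) (fun _ => hu.2 _) fun y =>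
      (h1.le (x := (y, _)) ⟨trivial, h3, by simp only [mem_ofPred_eq, id]; linarith⟩).trans_lt
        one_lt_two)

theorem psi_lt {g : e.Gen} (hg : g.OK) {v v' : e.YC} (h : Gd v) (h' : Gd v') (k : L v < L v') :
    e.ψ (L v) < e.ψ (L v') := by
  obtain ⟨o, a⟩ := hg.all v h.crit
  obtain ⟨o', a'⟩ := hg.all v' h'.crit
  rw [h.inv _ _ (hg.crit o).1 a, h.inv _ _ (hg.crit o').1 a'] at k ⊢
  exact hg.sep _ _ k

end nk

variable {d : Dt κ lam ν} [Fintype d.𝓔] {Sl : Type} [Fintype Sl]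
  {T' : Type} [NormedAddCommGroup T'] [NormedSpace ℝ T'] [FiniteDimensional ℝ T']
  {s' : StS d Sl X'} {ε : d.𝓔} {a a' : Sl} {b : Bool}

/-- the times of a neck -/
def nJ (P : PcS d Sl X nc) (j : d.𝓔 × Sl) : Set ℝ := (P.nk j).elim ∅ fun K => K.J

/-- a configuration on a neck -/
def nC (P : PcS d Sl X nc) (j : d.𝓔 × Sl) (c : Cfg X.M κ ν) : (d.e j.1).ZC :=
  (P.nk j).elim ⟨0, 0⟩ fun K => K.pb c

/-- a gauge transformation on a neck -/
def nU (P : PcS d Sl X nc) (j : d.𝓔 × Sl) (u : X.M → ℂ) : (d.e j.1).Y.M × ℝ → ℂ :=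
  (P.nk j).elim 1 fun K z => u (K.ψ z)

theorem nk_act {P : PcS d Sl X nc} (j : d.𝓔 × Sl) {c : Cfg X.M κ ν} {u : X.M → ℂ}
    (hc : P.bg.Adm c) (hu : Gau X.I u) :
    (∀ z ∈ univ ×ˢ nJ P j, LG (IC (d.e j.1).Y.I) (nU P j u) z ∧
      At id (nC P j (P.bg.act u c)) ((d.e j.1).cyl.act (nU P j u) (nC P j c)) z) ∧
    ∀ t ∈ nJ P j, ((d.e j.1).Inv → L (sl (nC P j (P.bg.act u c)) t) = L (sl (nC P j c) t)) ∧
      fz (sl (nC P j (P.bg.act u c)) t) =
        (d.e j.1).cyl.act (fun z => nU P j u (z.1, t)) (fz (sl (nC P j c) t)) := by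
  unfold nJ nC nU
  cases P.nk j with
  | none => exact ⟨fun _ h => h.2.elim, fun _ h => h.elim⟩
  | some K => exact ⟨fun z hz => ⟨lg_ψ K (K.mem_src.2 hz.2) hu, pb_act K (K.mem_src.2 hz.2) u c⟩,
      fun t ht => ⟨fun i => i _ _ (eqv_pb K hc hu ht).1 (eqv_pb K hc hu ht).2,
        (congrArg fz (sl_pb_act K ht u c)).trans (sl_act _ fun y => sa_ψ K (src K ht y) (hu.1 _))⟩⟩

section half
variable {𝓕 : Fam s' nc' T'} (h : 𝓕.OK) {t : T'} (ht : t ∈ 𝓕.Q) {P : PcS d Sl X nc}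
  {φ φ' : OpenPartialHomeomorph X'.M X.M} {δ ρ ρ' : ℝ} {O : d.𝓔 × Sl → Prop} {π : d.𝓔 × Sl → Sl}
  {cc : Fin nc' → Fin nc} {J : Finset d.W} (H : Half P (𝓕.P t) ε a a' b φ δ ρ O π cc J)
include h ht H

theorem half_site {K' : Nk (d.e ε) s'.bg} (hK : K' ∈ s'.nk (ε, a')) :
    ∃ K : Nk (d.e ε) P.bg, P.nk (ε, a) = some K ∧
      (if b then K.p = K'.p.map (· + δ) else K.q = K'.q.map (· + δ)) ∧
      (∀ x, x ∈ φ.source ↔ (K'.tm x ∈ K'.J → K'.tm x + δ ∈ K.J)) ∧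
      ∀ y τ, τ ∈ K'.J → τ + δ ∈ K.J → φ (K'.ψ (y, τ)) = K.ψ (y, τ + δ) := by
  obtain ⟨K, h1, -⟩ := H.nk
  obtain ⟨K₁, h2, k⟩ := h.en t ht (ε, a') K' hK
  obtain ⟨-, h3, h4, h5, -⟩ := Cut71.half_nk H h1 h2
  simp only [Nd18.Nk.J, ng_p k, ng_q k, ng_ψ k, ng_tm k] at h3 h4 h5
  exact ⟨K, h1, h3, h4, h5⟩

theorem half_inf (i : s'.Inf (ε, a') !b) : P.Inf (ε, a) !b := by
  obtain ⟨K', h1, h2⟩ := i
  obtain ⟨K, h3, h4, -⟩ := half_site h ht H h1
  refine ⟨K, h3, ?_⟩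
  cases b
  exacts [h4.trans (congrArg _ h2), h4.trans (congrArg _ h2)]

theorem half_ends (j' : d.𝓔 × Sl) {b' : Bool} (i : s'.Inf j' b') : j' = (ε, a') ∨
    ∃ j, O j ∧ (j.1, π j) = j' ∧ P.Inf j b' := by
  obtain ⟨K₁, h1, h2⟩ := (inf_iff h ht _ _).2 i
  have n : ¬(𝓕.P t).Off j' := fun k => by
    obtain ⟨r, h3, h4⟩ := k K₁ h1
    cases b' <;> simp [Nk.Inf, h3, h4] at h2
  refine or_iff_not_imp_left.2 fun k => ?_
  obtain ⟨j, h3, rfl⟩ := (H.sur j' k).resolve_left n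
  obtain ⟨K, h4, K₂, h5, h6, h7, -⟩ := (H.oth j h3).2.2.resolve_left fun k => n k.2
  obtain rfl := Option.mem_unique h1 h5
  exact ⟨j, h3, rfl, K, h4, by simpa only [Nk.Inf, h6, h7] using h2⟩

theorem half_eq (H' : Half P (𝓕.P t) ε a a' b φ' δ ρ' O π cc J) (i : P.Inf (ε, a) b) (z : X'.M) :
    φ z = φ' z := by
  obtain ⟨K, h1, h2⟩ := i
  obtain ⟨-, -, K', h3, -⟩ := H.nk
  obtain ⟨a1, a2, a3, a4, -⟩ := Cut71.half_nk H h1 h3
  obtain ⟨-, -, a5, a6, -⟩ := Cut71.half_nk H' h1 h3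
  have k : ∀ τ ∈ K'.J, τ + δ ∈ K.J := fun τ hτ => by
    cases b <;> simp only [Nk.Inf, if_true, Bool.false_eq_true, if_false] at h2 a2
    · refine ⟨by simp [h2], fun r hr => ?_⟩
      obtain ⟨r, h4, rfl⟩ := Option.mem_map.1 (a2 ▸ hr)
      linarith [hτ.2 r h4]
    · refine ⟨fun r hr => ?_, by simp [h2]⟩
      obtain ⟨r, h4, rfl⟩ := Option.mem_map.1 (a2 ▸ hr)
      linarith [hτ.1 r h4]
  obtain ⟨T, h4⟩ := far_J K' a1 (D := 1)
  have h5 := deep_J K' one_pos (h4 (pm b * (T + 1)) (by rw [← mul_assoc, pm_sq]; linarith))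
  obtain ⟨y⟩ : Nonempty (d.e ε).Y.M := inferInstance
  have := h.site.con
  exact Sw21.iso_eq H.lit.iso H'.lit.iso (eq_univ_of_forall fun x => (a3 x).2 (k _))
    (eq_univ_of_forall fun x => (a5 x).2 (k _))
    ((a4 y _ h5 (k _ h5)).trans (a6 y _ h5 (k _ h5)).symm) z

end half

theorem fam_nk {σ' : Cel s' nc' nr' T'} (h : σ'.OK) (x : σ'.Pnt) {j : d.𝓔 × Sl}
    {K' : Nk (d.e j.1) s'.bg} (hK : K' ∈ s'.nk j) :
    (∀ z ∈ univ ×ˢ K'.J, LA (d.e j.1).cyl (K'.pb x.1.2) z) ∧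
      ∀ b, K'.Inf b → Dc b (K'.pb x.1.2) (σ'.β j b) := by
  obtain ⟨K, h1, k⟩ := h.en _ x.2.1 j K' hK
  have l := fun z (hz : z ∈ univ ×ˢ K.J) => la_ψ K (K.mem_src.2 hz.2) (.of_adm x.2.2.1 _)
  have e1 : K'.pb x.1.2 = K.pb x.1.2 := congrArg (fun ψ : OpenPartialHomeomorph _ _ => x.1.2.pb ψ)
    (ng_ψ k).symm
  have e2 : K'.J = K.J := congrArg₂ Nd18.Jv (ng_p k).symm (ng_q k).symm
  rw [e1, e2]
  refine ⟨l, fun b hb => ?_⟩
  have c := (h.gd j b ⟨K', hK, hb⟩).crit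
  have hb := (ng_inf k).2 hb
  obtain ⟨T, h2⟩ := far_J K hb (D := 1)
  refine ⟨c, fun η hη => ?_⟩
  obtain ⟨r, h3, h4⟩ := ((Sm10.Dg.decay K (h.site.en j) hb x.2.2.1 c.1 (x.2.2.2 j b K h1 hb) 1 η
    hη).and (eventually_ge_atTop T)).exists
  exact ⟨r, fun t ht => have m := deep_J K one_pos (h2 t (h4.trans_lt ht))
    (dj_of h3 ⟨m, ht⟩ (fun y => l _ ⟨trivial, m⟩) fun y => .of_adm c.1 _ :)⟩

/-- one side of a degeneration -/
structure One (σ' : Cel s' nc' nr' T') (ε : d.𝓔) (a a' : Sl) (b : Bool) (l : Filter α)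
    (P : α → PcS d Sl X nc) (c : α → Cfg X.M κ ν) (t : α → T')
    (φ : α → OpenPartialHomeomorph X'.M X.M) (δ : α → ℝ) (x : σ'.Pnt) : Prop where
  ok : σ'.OK
  sid : ∃ r, Tendsto r l atTop ∧ DSid σ' (ε, a') b l c t φ r x
  ev : ∀ᶠ i in l, (P i).bg.Adm (c i) ∧ t i ∈ σ'.Q ∧
    ∃ ρ O π cc, Half (P i) (σ'.P (t i)) ε a a' b (φ i) (δ i) ρ O π cc ∅

variable {P : α → PcS d Sl X nc} {c c' : α → Cfg X.M κ ν} {t t' : α → T'} {u : α → X.M → ℂ}
  {φ φ' : α → OpenPartialHomeomorph X'.M X.M} {δ δ' : α → ℝ} {K' : Nk (d.e ε) s'.bg}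

theorem One.sd {σ' : Cel s' nc' nr' T'} {l : Filter α} {x : σ'.Pnt}
    (h : One σ' ε a a' b l P c t φ δ x) (hK : K' ∈ s'.nk (ε, a')) :
    Sd l b (fun i => nJ (P i) (ε, a)) (fun i => nC (P i) (ε, a) (c i)) δ (K'.deep 1)
      (K'.pb x.1.2) := by
  obtain ⟨r, h1, h2⟩ := h.sid
  have k := h.ev.mono fun i ⟨k1, k2, _, _, _, _, H⟩ => And.intro k1 (half_site h.ok.toOK k2 H hK)
  have dJ : ∀ {τ}, τ ∈ K'.deep 1 → τ ∈ K'.J := deep_J K' one_pos
  refine ⟨fun z hz => (fam_nk h.ok x hK).1 z ⟨trivial, dJ hz.2⟩, k.mono fun i ⟨k1, K, k2, _⟩ => ?_,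
    fun τ hτ => ?_, fun R η hη => ?_⟩
  · simp only [nJ, nC, k2, Option.elim_some]
    exact ⟨oc_J K, fun z hz => la_ψ K (K.mem_src.2 hz.2) (.of_adm k1 _)⟩
  · obtain ⟨y⟩ : Nonempty (d.e ε).Y.M := inferInstance
    obtain ⟨O, h3, h4⟩ := h2.src (K'.ψ (y, τ))
    filter_upwards [k, h4] with i ⟨_, K, k2, _, k3, _⟩ k4
    have := (k3 _).1 (k4 (mem_of_mem_nhds h3))
    rw [K'.tm_ψ _ (src K' (dJ hτ) y)] at this
    simpa only [nJ, k2, Option.elim_some] using this (dJ hτ)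
  · filter_upwards [k, h2.nk (ε, a') K' hK 1 η hη, h1.eventually_ge_atTop R] with i ⟨_, K, k2, _, _, k3⟩
      k4 k5 w hw z hz
    simp only [nJ, nC, k2, Option.elim_some] at hz ⊢
    have e : ∀ᶠ y in 𝓝 z, K.ψ (y.1, y.2 + δ i) = φ i (K'.ψ y) := by
      filter_upwards [continuous_snd.tendsto z (Nd18.isOpen_Jv.mem_nhds (dJ hz.2.1)),
        (continuous_snd.add continuous_const).tendsto z (Nd18.isOpen_Jv.mem_nhds hz.2.2.2)]
        with y y1 y2 using (k3 y.1 y.2 y1 y2).symm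
    obtain ⟨k6, k7⟩ := k4 w hw z ⟨trivial, hz.2.1, fun _ => hz.2.2.1.trans_le k5⟩
    exact ⟨fun j => (congrArg abs (Dw_congr w (e.mono fun y hy =>
      congrArg (fun p => (c i).a j p - _) hy)).self_of_nhds).trans_le (k6 j),
      (congrArg norm (Dw_congr w (e.mono fun y hy =>
        congrArg (fun p => (c i).Φ p - _) hy)).self_of_nhds).trans_le k7⟩

section two
variable {𝓕 : Fam s' nc' T'} {β β' : BCs fun i : d.𝓔 × Sl => d.e i.1}
  {R R' : T' → Cfg X'.M κ ν → Fin nr' → ℝ} {𝒰 : Ultrafilter α}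
  {x : Cel.Pnt ⟨𝓕, β, R⟩} {x' : Cel.Pnt ⟨𝓕, β', R'⟩}
  (h : One ⟨𝓕, β, R⟩ ε a a' b 𝒰 P c t φ δ x) (h' : One ⟨𝓕, β', R'⟩ ε a a' b 𝒰 P c' t' φ' δ' x')
  (hu : ∀ᶠ i in (𝒰 : Filter α), Gau X.I (u i) ∧ c' i = (P i).bg.act (u i) (c i))
include h h' hu

theorem genS (e : ∀ᶠ i in (𝒰 : Filter α), t i = t' i ∧ ∀ z, φ i z = φ' i z) : x.1.1 = x'.1.1 ∧
    ∃ v, Gau X'.I v ∧ x'.1.2 = (𝓕.P x.1.1).bg.act v x.1.2 := by
  obtain ⟨r, -, k⟩ := h.sid
  obtain ⟨r', -, k'⟩ := h'.sid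
  have o : 𝓕.OK := h.ok.toOK
  have e0 := tendsto_nhds_unique_of_eventuallyEq k.par k'.par (e.mono fun _ h => h.1)
  have a' : (𝓕.P x.1.1).bg.Adm x'.1.2 := e0 ▸ x'.2.2.1
  have pr : ∀ j, UniformContinuous fun v : Fm (Option κ) ℝ => v j := fun j =>
    (PiLp.proj (𝕜 := ℝ) 2 (fun _ => ℝ) j).uniformContinuous
  obtain ⟨v, v1, v2, -⟩ := limB s'.bg.F.toPre s'.bg.m.J 𝒰 (u := fun i z => u i (φ i z))
    (c := fun i => alC 𝓕 (t i) ((c i).pb (φ i))) (c' := fun i => alC 𝓕 (t' i) ((c' i).pb (φ' i)))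
    (x := alC 𝓕 x.1.1 x.1.2) (x' := alC 𝓕 x'.1.1 x'.1.2)
    (fun z => (k.src z).imp fun O m => ⟨m.1, by
      filter_upwards [m.2, h.ev, hu, e] with i i1 ⟨_, i2, _, _, _, _, H⟩ i3 i4 y hy
      rw [← Sm10.Dg.alC_act o i2, ← i4.1, ← funext i4.2, i3.2]
      exact ⟨⟨(Cut71.rel H.lit).sm (i1 hy) (i3.1.1 _), .of_forall fun _ => i3.1.2 _⟩,
        Sm10.Dg.alC_congr (act_φ H.lit (i1 hy) _ _)⟩⟩)
    ⟨fun j => (pr j).comp_tendstoLocallyUniformly k.al, k.Φ⟩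
    ⟨fun j => (pr j).comp_tendstoLocallyUniformly k'.al, k'.Φ⟩
    ((adm_fam o x.2.1 _).1 x.2.2.1).1.sa ((adm_fam o x'.2.1 _).1 x'.2.2.1).1.sa
  rw [← Sm10.Dg.alC_act o x.2.1, ← e0] at v2
  refine ⟨e0, v, v1, Cfg.ext (funext₂ fun j z => ?_) (congrArg Cfg.Φ v2 :)⟩
  rw [← S_al o x.2.1 ((adm_fam o x.2.1 _).1 a').2, ← S_al o x.2.1 ((adm_fam o x.2.1 _).1
    (adm_of fun y => (LA.of_adm x.2.2.1 y).act (o.ok _ x.2.1).bg (v1.1 y))).2]
  exact Finset.sum_congr rfl fun i _ => congrArg (fun c : Cfg _ κ ν => _ * c.a i z) v2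

theorem eqβ {C : ℝ} (hC : ∀ᶠ i in (𝒰 : Filter α), |δ' i - δ i| ≤ C) (hg : ∀ᶠ i in (𝒰 : Filter α),
    ∀ K ∈ (P i).nk (ε, a), ∀ τ ∈ K.J, Lg (d.e ε).Y.I fun y => u i (K.ψ (y, τ))) :
    Eq0 (β (ε, a') b) (β' (ε, a') b) := by
  obtain ⟨K', hK, i⟩ := h.sid.choose_spec.2.inf
  obtain ⟨T, k⟩ := far_J K' i (D := 1)
  refine eq0 (h.sd hK) (h'.sd hK) hC ((fam_nk h.ok x hK).2 b i) ((fam_nk h'.ok x' hK).2 b i) k ?_
  filter_upwards [h.ev, hu, hg] with i i1 i2 i3 τ hτ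
  refine ⟨fun y => nU (P i) (ε, a) (u i) (y, τ), ?_, i2.2 ▸ ((nk_act _ i1.1 i2.1).2 τ hτ).2⟩
  unfold nJ at hτ
  unfold nU
  cases e : (P i).nk (ε, a) with
  | none => exact Sw21.Lg.one
  | some K => exact i3 K e τ (by simpa only [e, Option.elim_some] using hτ)

variable (hK : K' ∈ s'.nk (ε, a')) (hp : K'.p = none) (hq : K'.q = none)
include hK hp hq

theorem cenB (n : L (β (ε, a') b) ≠ L (β' (ε, a') !b)) (n' : L (β' (ε, a') b) ≠ L (β (ε, a') !b)) :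
    ∃ r, Tendsto (fun i => δ' i - δ i) 𝒰 (𝓝 r) := by
  have i : ∀ b, K'.Inf b := fun b => by cases b <;> assumption
  have D : K'.deep 1 = univ := by simp [Nk.deep, hp, hq, Nd18.Jv]
  have k := D ▸ h.sd hK
  have k' := D ▸ h'.sd hK
  have f := fun b => (fam_nk h.ok x hK).2 b (i b)
  have f' := fun b => (fam_nk h'.ok x' hK).2 b (i b)
  have v := (h.ev.and hu).mono fun j hj τ hτ => (congrArg (fun c => L (sl (nC _ _ c) τ)) hj.2.2).trans
    (((nk_act (ε, a) hj.1.1 hj.2.1).2 τ hτ).1 (h.ok.gd (ε, a') b ⟨K', hK, i b⟩).inv)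
  obtain ⟨r, hr⟩ := tri 𝒰 (bdd (h.ok.site.en (ε, a')) k k' (f b) (f' _) n v) fun m =>
    bdd (h.ok.site.en (ε, a')) k' k (f' b) (f _) n' (v.mono fun _ e τ hτ => (e τ hτ).symm)
      (m.congr fun _ => by ring)
  exact ⟨_, (hr.const_mul (pm b)).congr fun _ => by rw [← mul_assoc, pm_sq, one_mul]⟩

theorem cenE [Subsingleton T'] (e : ∀ b, β' (ε, a') b = β (ε, a') b) {g : (d.e ε).Gen} (hg : g.OK)
    (n : L (β (ε, a') true) < L (β (ε, a') false))
    (m : s'.mo β (ε, a') false x.1.2 = s'.mo β (ε, a') true x.1.2)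
    (m' : s'.mo β' (ε, a') false x'.1.2 = s'.mo β' (ε, a') true x'.1.2) : x.1.1 = x'.1.1 ∧
    ∃ v, Gau X'.I v ∧ x'.1.2 = (𝓕.P x.1.1).bg.act v x.1.2 := by
  have i : ∀ b, K'.Inf b := fun b => by cases b <;> assumption
  have D : K'.deep 1 = univ := by simp [Nk.deep, hp, hq, Nd18.Jv]
  have n' : L (β (ε, a') b) ≠ L (β (ε, a') !b) := by cases b; exacts [n.ne', n.ne]
  obtain ⟨r, hr⟩ := cenB h h' hu hK hp hq (by rwa [e]) (by rwa [e])
  obtain ⟨w, w1, w2⟩ := limZ 𝒰 (D ▸ h.sd hK) (D ▸ h'.sd hK) hr ((h.ev.and hu).mono fun j hj =>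
    hj.2.2 ▸ (nk_act (ε, a) hj.1.1 hj.2.1).1)
  have G := fun b => h.ok.gd (ε, a') b ⟨K', hK, i b⟩
  simp only [Pz.mo, Option.mem_def.1 hK, Option.elim_some, Nk.mo, Nk.β, hp, hq, Option.getD_none,
    pm, e, if_true, Bool.false_eq_true, if_false, neg_add_cancel, sub_self, sub_zero] at m m'
  obtain rfl := cen (h.ok.site.en (ε, a')) (adm_of fun z => (D ▸ h.sd hK).adm z ⟨trivial, trivial⟩)
    (fun b => (fam_nk h.ok x hK).2 b (i b)) G (psi_lt hg (G _) (G _) n).ne' w1 (by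
      rintro _ (rfl | rfl)
      exacts [m, w2 ▸ m'])
  obtain ⟨K, -, k⟩ := h.ok.en _ x.2.1 (ε, a') K' hK
  have T : ∀ z, z ∈ K.ψ.target := fun z => by simp [K.tgt, ng_p k, ng_q k, hp, hq, Nd18.Jv]
  have q : ∀ c : Cfg X'.M κ ν, (K.pb c).pb K.ψ.symm = c := fun c =>
    Cfg.ext (funext₂ fun j z => congrArg _ (K.ψ.right_inv (T z)))
      (funext fun z => congrArg _ (K.ψ.right_inv (T z)))
  have lt := Cut71.lit_symm (Cut71.nk_lit K)
  rw [shf_zero, Nk.pb, Nk.pb, ← ng_ψ k] at w2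
  refine ⟨Subsingleton.elim _ _, fun z => w (K.ψ.symm z),
    ⟨fun z => (Cut71.rel lt).sm (T z) (w1.1 _), fun _ => w1.2 _⟩, ?_⟩
  rw [← q x'.1.2, ← q x.1.2, Nk.pb, w2]
  exact Cfg.ext (funext₂ fun j z => (act_φ lt (T z) _ _).1 j) (funext fun z => (act_φ lt (T z) _ _).2)

omit hK hp hq in
theorem side (hE : EqvStmt κ lam ν) (e : ∀ j b, s'.Inf j b → β' j b = β j b) {g : (d.e ε).Gen}
    (hg : g.OK) (m : R x.1.1 x.1.2 = 0) (m' : R' x'.1.1 x'.1.2 = 0)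
    (k : (∀ᶠ i in (𝒰 : Filter α), t i = t' i ∧ δ i = δ' i ∧ ∀ z, φ i z = φ' i z) ∨
      Cel.Cen ⟨𝓕, β, R⟩ (ε, a') ∧ Cel.Cen ⟨𝓕, β', R'⟩ (ε, a') ∧
        L (β (ε, a') true) < L (β (ε, a') false)) :
    x.1.1 = x'.1.1 ∧ (𝓕.P x.1.1).Eqv x.1.2 x'.1.2 := by
  have o : 𝓕.OK := h.ok.toOK
  have G := fun j b i => h.ok.gd j b ((inf_iff o x.2.1 j b).1 i)
  obtain ⟨e0, v, v1, v2⟩ : x.1.1 = x'.1.1 ∧
      ∃ v, Gau X'.I v ∧ x'.1.2 = (𝓕.P x.1.1).bg.act v x.1.2 := by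
    rcases k with k | ⟨⟨rfl, -, s, -, -, ⟨K', hK, hp, hq⟩, r⟩, ⟨-, -, -, -, -, -, r'⟩, n⟩
    · exact genS h h' hu (k.mono fun _ h => ⟨h.1, h.2.2⟩)
    · exact cenE h h' hu hK hp hq (fun b => e _ b ⟨K', hK, by cases b <;> assumption⟩) hg n
        (sub_eq_zero.1 ((r _ _ 0).symm.trans (congrFun m 0)))
        (sub_eq_zero.1 ((r' _ _ 0).symm.trans (congrFun m' 0)))
  have A : (𝓕.P x.1.1).As β' x'.1.2 := e0 ▸ x'.2.2
  exact ⟨e0, v, hE _ _ _ _ _ (o.ok _ x.2.1).toOK β (fun j b i => (G j b i).crit)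
    (fun j b i => (G j b i).irr) _ v x.2.2 v1 (v2 ▸ ⟨A.1, fun j b K hK i =>
      e j b ((inf_iff o x.2.1 j b).1 ⟨K, hK, i⟩) ▸ A.2 j b K hK i⟩), v2⟩

end two

section fin
variable {XL XR : Mf 4} {nr ncL nrL ncR nrR : ℕ} {T TL TR : Type}
  [NormedAddCommGroup T] [NormedSpace ℝ T] [FiniteDimensional ℝ T]
  [NormedAddCommGroup TL] [NormedSpace ℝ TL] [FiniteDimensional ℝ TL]
  [NormedAddCommGroup TR] [NormedSpace ℝ TR] [FiniteDimensional ℝ TR]

theorem kind_cen {s : StS d Sl X} {sL : StS d Sl XL} {sR : StS d Sl XR} {σ : Cel s nc nr T}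
    {σL : Cel sL ncL nrL TL} {σR : Cel sR ncR nrR TR} {p : Spl X XL XR nc ncL ncR d Sl T TL TR}
    (h : p.Kind σ σL σR) : (p.o = some false ∨ nr = 1 → σL.Cen (p.ε, p.aL)) ∧
      (p.o = some true → σR.Cen (p.ε, p.aR)) := by
  rcases h with ⟨a, -, b, -⟩ | ⟨a, b, -, c, -⟩ | ⟨a, -, -, c, -⟩ | ⟨-, -, b, c, -⟩
  exacts [by simp [a, b], ⟨by simp [a, b], fun _ => c⟩, ⟨fun _ => c, by simp [a]⟩,
    ⟨fun _ => b, fun _ => c⟩]

/-- **DEG-UNIQ** -/
theorem uniq (hE : EqvStmt κ lam ν) : UniqP d Sl X XL XR nc nr ncL nrL ncR nrR T TL TR := by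
  rintro s sL sR σ ⟨FL, bL, rL⟩ ⟨FR, bR, rR⟩ p V hV ⟨g, hg⟩ hN βL RL βR RR h1 h2 v1 v2 ι 𝒰 y x z x' z'
    q sx sz sx' sz' ⟨y1, tL, tR, δ, e1, l1, L1, R1⟩ ⟨y2, tL', tR', δ', e2, l2, L2, R2⟩
  have o := h1.ok.toOK
  have oL : FL.OK := h1.okL.toOK
  have oR : FR.OK := h1.okR.toOK
  obtain ⟨u, hu⟩ := Eventually.choice (r := fun i u => (y2 i).1.1 = (y1 i).1.1 ∧
      (σ.P (y1 i).1.1).Al u ∧ (y2 i).1.2 = (σ.P (y1 i).1.1).bg.act u (y1 i).1.2)
    ((e1.and e2).mono fun i ⟨⟨⟨a, b⟩, _⟩, ⟨a', b'⟩, _⟩ =>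
      have k := eqv_equiv (o.ok _ (y i).2.1).toOK
      let ⟨u, k⟩ := k.trans (k.symm b) b'
      ⟨u, a'.symm.trans a, a ▸ k⟩)
  have hu' := hu.mono fun i k => And.intro k.2.1.1 k.2.2
  have c1 := e1.mono fun i k => (⟨k.2.2.2.QL, k.2.2.2.QR, k.2.2.1 ▸ k.2.2.2.L, k.2.2.1 ▸ k.2.2.2.R⟩ :
    _ ∧ _ ∧ Half (σ.P (y1 i).1.1) _ _ _ _ _ _ _ _ _ _ _ _ ∧
      Half (σ.P (y1 i).1.1) _ _ _ _ _ _ _ _ _ _ _ _)
  have c2 := (e2.and hu).mono fun i k => (⟨k.1.2.2.2.QL, k.1.2.2.2.QR,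
    k.2.1 ▸ k.1.2.2.1 ▸ k.1.2.2.2.L, k.2.1 ▸ k.1.2.2.1 ▸ k.1.2.2.2.R⟩ :
    _ ∧ _ ∧ Half (σ.P (y1 i).1.1) _ _ _ _ _ _ _ _ _ _ _ _ ∧
      Half (σ.P (y1 i).1.1) _ _ _ _ _ _ _ _ _ _ _ _)
  have r : ∀ {f : ι → ℝ}, Tendsto f 𝒰 atTop → Tendsto (fun i => f i / 2 + 1 / 2) 𝒰 atTop := fun k =>
    tendsto_atTop_add_const_right _ _ (k.atTop_div_const two_pos)
  have a2 := hu.mono fun i k => (k.1 ▸ (y2 i).2.2.1 : (σ.P (y1 i).1.1).bg.Adm (y2 i).1.2)
  have A1 := One.mk h1.okL ⟨_, r l1, L1⟩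
    (c1.mono fun i k => ⟨(y1 i).2.2.1, k.1, _, _, _, _, k.2.2.1⟩)
  have B1 := One.mk h1.okR ⟨_, r l1, R1⟩
    (c1.mono fun i k => ⟨(y1 i).2.2.1, k.2.1, _, _, _, _, k.2.2.2⟩)
  have A2 := One.mk h2.okL ⟨_, r l2, L2⟩
    ((c2.and a2).mono fun i k => ⟨k.2, k.1.1, _, _, _, _, k.1.2.2.1⟩)
  have B2 := One.mk h2.okR ⟨_, r l2, R2⟩
    ((c2.and a2).mono fun i k => ⟨k.2, k.1.2.1, _, _, _, _, k.1.2.2.2⟩)
  obtain ⟨i₀, k1, k2, k3, k4⟩ := c1.exists
  have ii := fun j b => inf_iff o (y1 i₀).2.1 j b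
  have iL := fun k => (ii _ _).1 (half_inf oL k1 k3 k)
  have iR := fun k => (ii _ _).1 (half_inf oR k2 k4 k)
  have pe := (e1.and (e2.and hu)).mono fun i k => k.1.2.2.1.symm.trans (k.2.2.1.symm.trans k.2.1.2.2.1)
  have CL := fun k : p.o = some false ∨ nr = 1 =>
    have c := (kind_cen h1.kind).1 k
    have i := c.2.2.2.2.2.1.elim fun K h => iL ⟨K, h.1, h.2.1⟩
    have k' : p.o ≠ some true ∨ nr = 1 := k.imp_left fun k => by simp [k]
    And.intro i (And.intro c (And.intro ((kind_cen h2.kind).1 k) (And.intro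
      ((h1.lvL i k').trans_eq (congrArg L (h1.βL i).symm))
      ((h2.lvL i k').trans_eq (congrArg L (h2.βL i).symm)))))
  have CR := fun k : p.o = some true =>
    have c := (kind_cen h1.kind).2 k
    have i := c.2.2.2.2.2.1.elim fun K h => iR ⟨K, h.1, h.2.2⟩
    And.intro i (And.intro c (And.intro ((kind_cen h2.kind).2 k)
      (((congrArg L (h1.βR i)).trans_lt (h1.lvR k)).trans_eq (congrArg L h1.mid))))
  obtain ⟨gL, gR⟩ : ((∀ᶠ i in (𝒰 : Filter ι), tL i = tL' i ∧ (δ i).1 = (δ' i).1 ∧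
      ∀ z, p.φL (δ i) z = p.φL (δ' i) z) ∨ p.o = some false ∨ nr = 1) ∧
      ((∀ᶠ i in (𝒰 : Filter ι), tR i = tR' i ∧ (δ i).2 = (δ' i).2 ∧
      ∀ z, p.φR (δ i) z = p.φR (δ' i) z) ∨ p.o = some true) := by
    rcases h1.kind with ⟨-, -, -, -, -, a, b, -⟩ | ⟨a, -, -, -, b, c, f, -⟩ |
      ⟨a, -, -, -, b, c, f, -⟩ | ⟨a, b, -⟩
    · have := (pe.and (e1.and e2)).mono fun i k => by
        obtain ⟨a1, a2, a3⟩ := Prod.ext_iff.1 (a.1 k.1) |>.imp_right Prod.ext_iff.1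
        exact And.intro a1 (And.intro a2 ((b _).unique ⟨k.2.1.2.2.2.Δ, a3⟩ ⟨k.2.2.2.2.2.Δ, rfl⟩))
      exact ⟨.inl (this.mono fun i k => ⟨k.1, by rw [k.2.2], by simp [k.2.2]⟩),
        .inl (this.mono fun i k => ⟨k.2.1, by rw [k.2.2], by simp [k.2.2]⟩)⟩
    · refine ⟨.inl ?_, .inr a⟩
      filter_upwards [pe, e1, e2, c1, c2] with i a1 a2 a3 a4 a5
      have b1 : tL i = tL' i := f.1 ((c _ _ _).symm.trans (a1.trans (c _ _ _)))
      have b2 : (δ i).1 = (δ' i).1 := (b.le a2.2.2.2.Δ).trans (b.le a3.2.2.2.Δ).symm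
      exact ⟨b1, b2, half_eq oL a4.1 a4.2.2.1 (b1 ▸ b2 ▸ a5.2.2.1)
        ((inf_iff o (y1 i).2.1 _ _).2 (CR a).1)⟩
    · refine ⟨.inr (.inl a), .inl ?_⟩
      filter_upwards [pe, e1, e2, c1, c2] with i a1 a2 a3 a4 a5
      have b1 : tR i = tR' i := f.1 ((c _ _ _).symm.trans (a1.trans (c _ _ _)))
      have b2 : (δ i).2 = (δ' i).2 := (b.le a2.2.2.2.Δ).trans (b.le a3.2.2.2.Δ).symm
      exact ⟨b1, b2, half_eq oR a4.2.1 a4.2.2.2 (b1 ▸ b2 ▸ a5.2.2.2)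
        ((inf_iff o (y1 i).2.1 _ _).2 (CL (.inl a)).1)⟩
    · exact ⟨.inr (.inr b.1), .inr a⟩
  obtain ⟨C, hC⟩ : ∃ C, ∀ᶠ i in (𝒰 : Filter ι), |(δ' i).1 - (δ i).1| ≤ C := by
    rcases gL with k | k
    · exact ⟨0, k.mono fun i k => by simp [k.2.1]⟩
    obtain ⟨i, ⟨-, -, -, -, -, ⟨K, a, b, c⟩, -⟩, -, f, f'⟩ := CL k
    have e : βL (p.ε, p.aL) false = bL (p.ε, p.aL) false := (h2.βL i).trans (h1.βL i).symm
    obtain ⟨r, hr⟩ := cenB A1 A2 hu' a b c (f.trans_eq (congrArg L e.symm)).ne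
      (f'.trans_eq (congrArg L e)).ne
    exact ⟨_, (hr.abs.eventually_le_const (lt_add_one _))⟩
  have eβ : bL (p.ε, p.aL) true = βL (p.ε, p.aL) true := by
    refine hV.inj _ v1 _ v2 (eqβ A1 A2 hu' hC (hu.mono fun i k K hK τ hτ => ?_))
    have f := fun b (a : s.Inf (p.ε, p.a) b) =>
      let ⟨K', a1, a2⟩ := (inf_iff o (y1 i).2.1 _ _).2 a
      have a3 : K.Inf b := Option.mem_unique a1 hK ▸ a2
      lg_end K (o.site.en (p.ε, p.a)) a3 k.2.1.1 (k.2.1.2 _ b K hK a3) hτ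
    rcases e : p.o with _ | _ | _
    exacts [hN e _ (y1 i).2.1 K hK _ k.2.1 τ hτ, f _ (CL (.inl e)).1, f _ (CR e).1]
  have sL := side A1 A2 hu' hE (fun j b i => by
    rcases half_ends oL k1 k3 j i with rfl | ⟨j, a, rfl, f⟩
    · cases b
      exacts [(h2.βL (iL i)).trans (h1.βL (iL i)).symm, eβ.symm]
    · have f1 := h1.βo j b a.1 ((ii _ _).1 f)
      have f2 := h2.βo j b a.1 ((ii _ _).1 f)
      rw [a.2, if_neg Bool.false_ne_true] at f1 f2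
      exact f2.symm.trans f1) hg sx.2 sx'.2
    (gL.imp_right fun k => ⟨(CL k).2.1, (CL k).2.2.1, (CL k).2.2.2.1⟩)
  have sR := side B1 B2 hu' hE (fun j b i => by
    rcases half_ends oR k2 k4 j i with rfl | ⟨j, a, rfl, f⟩
    · cases b
      exacts [h2.mid.symm.trans (eβ.symm.trans h1.mid), (h2.βR (iR i)).trans (h1.βR (iR i)).symm]
    · have f1 := h1.βo j b a.1 ((ii _ _).1 f)
      have f2 := h2.βo j b a.1 ((ii _ _).1 f)
      rw [a.2, if_pos rfl] at f1 f2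
      exact f2.symm.trans f1) hg sz.2 sz'.2 (gR.imp_right fun k => (CR k).2)
  exact ⟨eβ, sL.1, sR.1, sL.2, sR.2⟩

end fin

end Crest.Agent.X212.Unq6
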